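import Vale.Agent.P249.Main

open Vale.Agent.P249

/-- For every `p ≥ 1` and `D > 1` there is a constant `C` such that for every `n ≥ 2`, every
`n`-point subset of every `ℓ_p^m` maps into `ℓ_p^d` with distortion at most `D`, for some dimension
`d ≤ C n (log n) ^ (p + 3)`. Thus `d_p(n, D) ≤ C n (log n) ^ (p + 3)`. -/
theorem Vale.Agent.Results.P249.NearLinearDimension.result {p D : ℝ} (hp : 1 ≤ p) (hD : 1 < D) :
    ∃ C : ℝ, 0 < C ∧ ∀ n : ℕ, 2 ≤ n → ∀ (m : ℕ) (x : Fin n → Fin m → ℝ), Function.Injective x →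
      ∃ (d : ℕ) (f : Fin n → Fin d → ℝ) (s : ℝ), (d : ℝ) ≤ C * n * Real.log n ^ (p + 3) ∧ 0 < s ∧
        ∀ a b, s * lpDist p (x a) (x b) ≤ lpDist p (f a) (f b) ∧
          lpDist p (f a) (f b) ≤ D * s * lpDist p (x a) (x b) :=
  main_bound hp hD
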